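import Vale.Agent.P281.H776.NU.Green
import Vale.Agent.P281.H342.NU.Iface2
import Vale.Agent.P281.H413.NU.Rows

/-! P281, theorem NU: the density `b(y) dy ∧ dȳ ∧ A ^ d`, its smoothness and its integral as a
function of `A`. -/

open scoped Manifold ContDiff Topology ComplexOrder
open Set Filter Vale.Agent.P281.J Vale.Agent.P272.K Vale.Agent.P272.K.AMP Vale.Agent.P299
open Vale.Agent.P272.K.INT (IsClosedForm intX IsDensity lag)

noncomputable section

namespace Vale.Agent.P281.H776.NU

open Vale.Agent.P281.H342.NU (bdet rowsY IsTube tubeF BPart)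
open Vale.Agent.P281.H167.GM (mixD addF)
open Vale.Agent.P281.H227.GMC (isClosed_addF)

variable {n p : ℕ} {X : Type} [TopologicalSpace X] [ChartedSpace (Cm n) X]
  [IsManifold 𝓘(ℂ, Cm n) ω X] [T2Space X] {O : Set X} {y : X → Cm p} {W : Set (Cm p)}
  {b₀ : Cm p → ℝ}

/-- the density as a combination of determinants -/
theorem exists_rep (hT : IsTube (n := n) O y W) (hc : HasCompactSupport b₀)
    (hs : tsupport b₀ ⊆ W) : ∃ (N : ℕ) (κ s : ℕ → ℝ) (h : X → ℝ), SmoothFn (n := n) h ∧
      ∀ (A : D.FormM n X) e x, At e x →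
        tubeF O y b₀ x * bdet (rowsY y e (e x)) (A e (e x)) =
          ∑ i ∈ Finset.range N, κ i *
            (tubeF O y b₀ x * (addF A (s i) (hess h) e (e x)).det.re) := by
  obtain ⟨κ, hκ⟩ := exists_bdet n p
  obtain ⟨h₀, hh0, hh1, hh2, hh3⟩ := exists_h0 hT.openW hc hs
  refine ⟨n + p + 1, κ, fun i => ((i : ℝ) + 1)⁻¹, tubeF O y h₀, smooth_tubeF hT hh0 hh1 hh2,
    fun A e x hx => ?_⟩
  by_cases hk : x ∈ kS O y b₀
  · have hq : hess (n := n) (tubeF O y h₀) e (e x) = qb (rowsY y e (e x)) := by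
      rw [hess_tubeF hT hh0 hx hk.1, hh3 _ hk.2, Matrix.mul_one]
      rfl
    rw [hκ, Finset.mul_sum]
    refine Finset.sum_congr rfl fun i _ => ?_
    unfold addF
    rw [hq]
    ring
  · rw [tubeF_of_notMem hk]
    simp

/-- the density is a density -/
theorem isDensity_tube (hT : IsTube (n := n) O y W) (hb : ContDiff ℝ ∞ b₀)
    (hc : HasCompactSupport b₀) (hs : tsupport b₀ ⊆ W) {A : D.FormM n X} (hA : IsClosedForm A) :
    IsDensity fun (e : Chart n X) z => tubeF O y b₀ (e.symm z) * bdet (rowsY y e z) (A e z) := by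
  obtain ⟨N, κ, s, h, hh, hr⟩ := exists_rep hT hc hs
  have hd : IsDensity fun (e : Chart n X) z => ∑ i ∈ Finset.range N, κ i *
      (tubeF O y b₀ (e.symm z) * (addF A (s i) (hess h) e z).det.re) :=
    IsDensity.sum _ fun i _ => ((isClosed_addF hA (closed_hess hh) (s i)).isDensity.smul
      (INT.SmoothFn.continuous (smooth_tubeF hT hb hc hs))).const_mul _
  have heq : ∀ e x, At e x → (fun z => tubeF O y b₀ (e.symm z) * bdet (rowsY y e z) (A e z))
      =ᶠ[𝓝 (e x)] fun z => ∑ i ∈ Finset.range N, κ i *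
      (tubeF O y b₀ (e.symm z) * (addF A (s i) (hess h) e z).det.re) := by
    intro e x hx
    filter_upwards [hx.nhds_target] with z hz
    have h1 := At.of_target hx.1 hz
    have h2 := hr A e (e.symm z) h1
    rw [e.right_inv hz] at h2
    exact h2
  constructor
  · intro e x hx
    exact (hd.cont e x hx).congr (heq e x hx).symm
  · intro e e' x hx hx'
    have h1 := (heq e x hx).eq_of_nhds
    have h2 := (heq e' x hx').eq_of_nhds
    have h3 := hd.change e e' x hx hx'
    beta_reduce at h1 h2 h3 ⊢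
    rw [h1, h2, h3]

/-- **Row N8 (b)** -/
theorem bPart : BPart := by
  intro n p X _ _ _ _ _ _ χ hχ O y W hT b₀ hb hc hs hb0 A hA hAH
  obtain ⟨N, κ, s, h, hh, hr⟩ := exists_rep hT hc hs
  have hcl : ∀ i, IsClosedForm (addF A (s i) (hess (n := n) h)) := fun i =>
    isClosed_addF hA (closed_hess hh) (s i)
  set F : Chart n X → Cm n → ℝ := fun e z =>
    (∑ i ∈ Finset.range N, κ i * (addF A (s i) (hess h) e z).det.re) / (χ e z).det.re with hF
  have hpos : ∀ e x, At e x → 0 < (χ e (e x)).det.re := fun e x hx => hχ.det_re_pos hx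
  have hFs : ∀ e x, At e x → ContDiffAt ℝ ∞ (F e) (e x) := by
    intro e x hx
    refine ContDiffAt.div ?_ ?_ (hpos e x hx).ne'
    · refine ContDiffAt.sum fun i _ => contDiffAt_const.mul ?_
      exact contDiffAt_re (INT.contDiffAt_det ((hcl i).smooth e x hx))
    · exact contDiffAt_re (INT.contDiffAt_det (hχ.smooth e x hx))
  have hFc : ∀ e e' x, At e x → At e' x → F e (e x) = F e' (e' x) := by
    intro e e' x hx hx'
    have h1 : ∀ i, (addF A (s i) (hess h) e (e x)).det.re =
        (addF A (s i) (hess h) e' (e' x)).det.re * ‖(jacM e e' x).det‖ ^ 2 := fun i =>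
      (hcl i).isDensity.change e e' x hx hx'
    have h2 : (χ e (e x)).det.re = (χ e' (e' x)).det.re * ‖(jacM e e' x).det‖ ^ 2 :=
      (INT.isDensity_det hχ.isForm hχ.smooth).change e e' x hx hx'
    have h3 : ‖(jacM e e' x).det‖ ^ 2 ≠ 0 := by
      intro h0
      rw [h0, mul_zero] at h2
      exact (hpos e x hx).ne' h2
    simp only [hF]
    have h4 : ∑ i ∈ Finset.range N, κ i * (addF A (s i) (hess h) e (e x)).det.re =
        (∑ i ∈ Finset.range N, κ i * (addF A (s i) (hess h) e' (e' x)).det.re) *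
          ‖(jacM e e' x).det‖ ^ 2 := by
      rw [Finset.sum_mul]
      refine Finset.sum_congr rfl fun i _ => ?_
      rw [h1]
      ring
    rw [h4, h2, mul_div_mul_right _ _ h3]
  have hkey : ∀ e x, At e x → tubeF O y b₀ x * atX F x * (χ e (e x)).det.re =
      tubeF O y b₀ x * bdet (rowsY y e (e x)) (A e (e x)) := by
    intro e x hx
    have h1 : atX F x = F e (e x) := hFc _ _ _ (at_chartAt x) hx
    rw [h1, hr A e x hx]
    simp only [hF]
    rw [mul_assoc, div_mul_cancel₀ _ (hpos e x hx).ne', Finset.mul_sum]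
    exact Finset.sum_congr rfl fun i _ => by ring
  refine ⟨fun x => tubeF O y b₀ x * atX F x, sm_mul (smooth_tubeF hT hb hc hs)
    (smoothFn_atX hFs hFc), hkey, fun hK x => ?_⟩
  have hx := at_chartAt (n := n) x
  have h1 := hkey _ x hx
  have h2 : 0 ≤ tubeF O y b₀ x := by
    unfold tubeF
    split_ifs
    · exact hb0 _
    · exact le_rfl
  have h3 : 0 ≤ bdet (rowsY y (chartAt (Cm n) x) (chartAt (Cm n) x x))
      (A (chartAt (Cm n) x) (chartAt (Cm n) x x)) := by
    rw [Vale.Agent.P281.H413.NU.bdet_eq _ (hK.posDef _ x hx)]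
    exact mul_nonneg (hK.det_re_pos hx).le (Vale.Agent.P281.H413.NU.gram_nonneg (hK.posDef _ x hx))
  have h4 : 0 ≤ (tubeF O y b₀ x * atX F x) * (χ (chartAt (Cm n) x) (chartAt (Cm n) x x)).det.re := by
    rw [h1]
    exact mul_nonneg h2 h3
  exact nonneg_of_mul_nonneg_left h4 (hpos _ x hx)

variable [CompactSpace X]

/-- the integral is a polynomial on the line `A + s B` -/
theorem tube_poly (hT : IsTube (n := n) O y W) (hb : ContDiff ℝ ∞ b₀)
    (hc : HasCompactSupport b₀) (hs : tsupport b₀ ⊆ W) {A B : D.FormM n X} (hA : IsClosedForm A)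
    (hB : IsClosedForm B) : ∃ P : Polynomial ℝ, P.natDegree ≤ n ∧ ∀ s : ℝ,
      intX (fun (e : Chart n X) z =>
        tubeF O y b₀ (e.symm z) * bdet (rowsY y e z) (addF A s B e z)) = P.eval s := by
  set f : ℝ → ℝ := fun s => intX (fun (e : Chart n X) z =>
        tubeF O y b₀ (e.symm z) * bdet (rowsY y e z) (addF A s B e z)) with hf
  obtain ⟨N, κ, σ, h, hh, hr⟩ := exists_rep hT hc hs
  have h1 : ∀ t, f t = ∑ j : Fin (n + 1), lag n j t * f (j : ℝ) := by
    intro t
    have h2 : f t = intX (fun (e : Chart n X) z => ∑ j : Fin (n + 1), lag n j t *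
        (tubeF O y b₀ (e.symm z) * bdet (rowsY y e z) (addF A (j : ℝ) B e z))) := by
      refine INT.intX_congr fun e x hx => ?_
      simp only [e.left_inv hx.2]
      rw [hr _ e x hx]
      have h3 : ∀ j : Fin (n + 1), lag n j t *
          (tubeF O y b₀ x * bdet (rowsY y e (e x)) (addF A (j : ℝ) B e (e x))) =
          ∑ i ∈ Finset.range N, κ i * (tubeF O y b₀ x * (lag n j t *
            (addF (addF A (j : ℝ) B) (σ i) (hess h) e (e x)).det.re)) := by
        intro j
        rw [hr _ e x hx, Finset.mul_sum]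
        exact Finset.sum_congr rfl fun i _ => by ring
      simp only [h3]
      rw [Finset.sum_comm]
      refine Finset.sum_congr rfl fun i _ => ?_
      rw [← Finset.mul_sum, ← Finset.mul_sum]
      congr 2
      have h4 : ∀ c : ℝ, addF (addF A c B) (σ i) (hess h) e (e x) =
          (A e (e x) + ((σ i : ℝ) : ℂ) • hess h e (e x)) + (c : ℂ) • B e (e x) := by
        intro c
        unfold addF
        abel
      simp only [h4]
      exact Vale.Agent.P281.H564.det_eq _ _ t
    rw [h2, INT.intX_sum Finset.univ (D := fun (j : Fin (n + 1)) (e : Chart n X) z => lag n j t *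
      (tubeF O y b₀ (e.symm z) * bdet (rowsY y e z) (addF A (j : ℝ) B e z))) fun j _ =>
        (isDensity_tube hT hb hc hs (isClosed_addF hA hB (j : ℝ))).const_mul _]
    exact Finset.sum_congr rfl fun j _ => INT.intX_const_mul _ _
  refine ⟨∑ j : Fin (n + 1), Polynomial.C (f (j : ℝ)) *
    (Lagrange.basis (Finset.univ : Finset (Fin (n + 1))) (fun i => (i : ℝ)) j), ?_, fun t => ?_⟩
  · refine Polynomial.natDegree_sum_le_of_forall_le _ _ fun j _ => ?_
    refine (Polynomial.natDegree_C_mul_le _ _).trans ?_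
    have hinj : Set.InjOn (fun i : Fin (n + 1) => (i : ℝ))
        (Finset.univ : Finset (Fin (n + 1))) := by
      intro i _ j _ h
      simp only at h
      exact Fin.ext (by exact_mod_cast h)
    rw [Lagrange.natDegree_basis hinj (Finset.mem_univ j), Finset.card_univ, Fintype.card_fin]
    omega
  · have h5 := h1 t
    rw [Polynomial.eval_finsetSum]
    show f t = _
    rw [h5]
    refine Finset.sum_congr rfl fun j _ => ?_
    rw [Polynomial.eval_mul, Polynomial.eval_C, mul_comm]
    rfl

/-- the integral is nonnegative for a Kähler form -/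
theorem tube_nn (hb0 : ∀ q, 0 ≤ b₀ q) {A : D.FormM n X} (hA : IsKahler A) :
    0 ≤ intX (fun (e : Chart n X) z =>
      tubeF O y b₀ (e.symm z) * bdet (rowsY y e z) (A e z)) := by
  refine INT.intX_nonneg fun e x hx => mul_nonneg ?_ ?_
  · unfold tubeF
    split_ifs
    · exact hb0 _
    · exact le_rfl
  · rw [Vale.Agent.P281.H413.NU.bdet_eq _ (hA.posDef _ x hx)]
    exact mul_nonneg (hA.det_re_pos hx).le (Vale.Agent.P281.H413.NU.gram_nonneg (hA.posDef _ x hx))

end Vale.Agent.P281.H776.NU
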