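import Vale.Agent.P281.H342.NU.Iface
import Vale.Agent.P281.H787.KLim
import Vale.Agent.P285.H231.PB.Comp

/-! P281, theorem NU, row N5, part 1: the bordered determinant. -/

open scoped Manifold ContDiff Topology ComplexOrder
open Set Filter Vale.Agent.P272.K

noncomputable section

namespace Vale.Agent.P281.H776.NU

open Vale.Agent.P281.H342.NU (bdet)
open Vale.Agent.P281.H167.GM (mixD)
open Vale.Agent.P281.H564 (hasDerivAt_mixD)

variable {n p : ℕ}

/-- `Σ i dy_a ∧ dȳ_a` -/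
def qb (b : Matrix (Fin p) (Fin n) ℂ) : Matrix (Fin n) (Fin n) ℂ :=
  b.transpose * b.map (starRingEnd ℂ)

/-- the bordered matrix -/
def bm (b : Matrix (Fin p) (Fin n) ℂ) (A : Matrix (Fin n) (Fin n) ℂ) (c : ℂ) :
    Matrix (Fin n ⊕ Fin p) (Fin n ⊕ Fin p) ℂ :=
  Matrix.fromBlocks A.transpose b.conjTranspose b (-(c • (1 : Matrix (Fin p) (Fin p) ℂ)))

lemma bdet_eq (b : Matrix (Fin p) (Fin n) ℂ) (A : Matrix (Fin n) (Fin n) ℂ) :
    bdet b A = ((-1) ^ p * (bm b A 0).det).re := by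
  unfold bdet bm
  rw [zero_smul, neg_zero]

lemma bm_det (b : Matrix (Fin p) (Fin n) ℂ) (A : Matrix (Fin n) (Fin n) ℂ) {c : ℂ} (hc : c ≠ 0) :
    (-1) ^ p * (bm b A c).det = c ^ p * (A + c⁻¹ • qb b).det := by
  have hinv : (-(c • (1 : Matrix (Fin p) (Fin p) ℂ))) * (-(c⁻¹ • (1 : Matrix (Fin p) (Fin p) ℂ))) = 1 := by
    rw [neg_mul_neg, Matrix.smul_mul, Matrix.mul_smul, Matrix.one_mul, smul_smul,
      mul_inv_cancel₀ hc, one_smul]
  letI : Invertible (-(c • (1 : Matrix (Fin p) (Fin p) ℂ))) :=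
    invertibleOfRightInverse _ _ hinv
  have h1 : ⅟(-(c • (1 : Matrix (Fin p) (Fin p) ℂ))) = -(c⁻¹ • (1 : Matrix (Fin p) (Fin p) ℂ)) := by
    exact invOf_eq_right_inv hinv
  unfold bm
  rw [Matrix.det_fromBlocks₂₂, h1]
  have h2 : A.transpose - b.conjTranspose * (-(c⁻¹ • (1 : Matrix (Fin p) (Fin p) ℂ))) * b =
      (A + c⁻¹ • qb b).transpose := by
    rw [Matrix.mul_neg, Matrix.neg_mul, sub_neg_eq_add, Matrix.mul_smul, Matrix.mul_one,
      Matrix.smul_mul, Matrix.transpose_add, Matrix.transpose_smul, qb, Matrix.transpose_mul,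
      Matrix.transpose_transpose]
    rfl
  rw [h2, Matrix.det_transpose, Matrix.det_neg, Matrix.det_smul, Matrix.det_one, mul_one,
    Fintype.card_fin, ← mul_assoc, ← mul_assoc, ← mul_pow]
  norm_num

/-- interpolation at `0` with the nodes `1, …, m + 1` -/
lemma exists_interp (m : ℕ) : ∃ κ : ℕ → ℝ, ∀ q : Polynomial ℝ, q.natDegree ≤ m →
    q.eval 0 = ∑ i ∈ Finset.range (m + 1), κ i * q.eval ((i : ℝ) + 1) := by
  refine ⟨fun i => (Lagrange.basis (Finset.range (m + 1)) (fun i : ℕ => (i : ℝ) + 1) i).eval 0,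
    fun q hq => ?_⟩
  have h := Lagrange.eq_interpolate (s := Finset.range (m + 1)) (v := fun i : ℕ => (i : ℝ) + 1)
    (f := q) (fun i _ j _ hij => by simpa using hij) (by
      rw [Finset.card_range]
      refine (Polynomial.degree_le_natDegree).trans_lt ?_
      exact_mod_cast Nat.lt_succ_of_le hq)
  conv_lhs => rw [h]
  rw [Lagrange.interpolate_apply, Polynomial.eval_finsetSum]
  refine Finset.sum_congr rfl fun i _ => ?_
  rw [Polynomial.eval_mul, Polynomial.eval_C, mul_comm]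

/-- the bordered determinant is a combination of determinants -/
theorem exists_bdet (n p : ℕ) : ∃ κ : ℕ → ℝ, ∀ (b : Matrix (Fin p) (Fin n) ℂ)
    (A : Matrix (Fin n) (Fin n) ℂ), bdet b A = ∑ i ∈ Finset.range (n + p + 1),
      κ i * (A + ((((i : ℝ) + 1)⁻¹ : ℝ) : ℂ) • qb b).det.re := by
  obtain ⟨κ, hκ⟩ := exists_interp (n + p)
  refine ⟨fun i => κ i * ((i : ℝ) + 1) ^ p, fun b A => ?_⟩
  set M0 : Matrix (Fin n ⊕ Fin p) (Fin n ⊕ Fin p) ℂ := bm b A 0 with hM0
  set M1 : Matrix (Fin n ⊕ Fin p) (Fin n ⊕ Fin p) ℂ :=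
    Matrix.fromBlocks 0 0 0 (-(1 : Matrix (Fin p) (Fin p) ℂ)) with hM1
  have hb : ∀ c : ℂ, bm b A c = c • M1 + M0 := by
    intro c
    rw [hM0, hM1]
    unfold bm
    rw [Matrix.fromBlocks_smul, Matrix.fromBlocks_add]
    congr 1 <;> simp
  set q : Polynomial ℂ := Polynomial.C ((-1) ^ p) *
    ((Polynomial.X : Polynomial ℂ) • M1.map Polynomial.C + M0.map Polynomial.C).det with hq
  have hdeg : q.natDegree ≤ n + p := by
    have h := Polynomial.natDegree_det_X_add_C_le M1 M0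
    rw [Fintype.card_sum, Fintype.card_fin, Fintype.card_fin] at h
    exact (Polynomial.natDegree_C_mul_le _ _).trans h
  have hev : ∀ c : ℂ, q.eval c = (-1) ^ p * (bm b A c).det := by
    intro c
    have h := RingHom.map_det (Polynomial.evalRingHom c)
      ((Polynomial.X : Polynomial ℂ) • M1.map Polynomial.C + M0.map Polynomial.C)
    rw [Polynomial.coe_evalRingHom] at h
    rw [hq, Polynomial.eval_mul, Polynomial.eval_C, h, hb c]
    congr 2
    ext i j
    simp only [RingHom.mapMatrix_apply, Matrix.map_apply, Matrix.add_apply, Matrix.smul_apply,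
      smul_eq_mul, Polynomial.coe_evalRingHom, Polynomial.eval_add, Polynomial.eval_mul,
      Polynomial.eval_X, Polynomial.eval_C]
  set r : Polynomial ℝ := ∑ k ∈ Finset.range (n + p + 1),
    Polynomial.C (q.coeff k).re * Polynomial.X ^ k with hr
  have hrdeg : r.natDegree ≤ n + p := by
    rw [hr]
    refine Polynomial.natDegree_sum_le_of_forall_le _ _ fun k hk => ?_
    refine (Polynomial.natDegree_C_mul_X_pow_le _ _).trans ?_
    have := Finset.mem_range.1 hk
    omega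
  have hrev : ∀ c : ℝ, r.eval c = (q.eval (c : ℂ)).re := by
    intro c
    rw [Polynomial.eval_eq_sum_range' (Nat.lt_succ_of_le hdeg), hr, Polynomial.eval_finsetSum,
      Complex.re_sum]
    refine Finset.sum_congr rfl fun j _ => ?_
    rw [← Complex.ofReal_pow, Complex.re_mul_ofReal]
    simp
  have h0 : bdet b A = r.eval 0 := by
    rw [hrev, Complex.ofReal_zero, hev, ← bdet_eq]
  rw [h0, hκ r hrdeg]
  refine Finset.sum_congr rfl fun i _ => ?_
  have hi : ((((i : ℝ) + 1 : ℝ)) : ℂ) ≠ 0 := by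
    have h : (0 : ℝ) < (i : ℝ) + 1 := by positivity
    exact_mod_cast h.ne'
  rw [hrev, hev, bm_det b A hi, ← Complex.ofReal_pow, Complex.re_ofReal_mul, mul_assoc]
  congr 4
  ext k l
  simp

/-- invariance of the bordered determinant -/
theorem bdet_inv (b : Matrix (Fin p) (Fin n) ℂ) (A : Matrix (Fin n) (Fin n) ℂ)
    (C : Matrix (Fin p) (Fin p) ℂ) :
    bdet b (A + b.transpose * C * b.map (starRingEnd ℂ)) = bdet b A := by
  have h1 : Matrix.fromBlocks (A + b.transpose * C * b.map (starRingEnd ℂ)).transpose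
      b.conjTranspose b 0 = Matrix.fromBlocks 1 (b.conjTranspose * C.transpose) 0 1 *
        Matrix.fromBlocks A.transpose b.conjTranspose b 0 := by
    rw [Matrix.fromBlocks_multiply]
    congr 1
    · rw [Matrix.one_mul, Matrix.transpose_add, Matrix.transpose_mul, Matrix.transpose_mul,
        Matrix.transpose_transpose, Matrix.mul_assoc]
      rfl
    · rw [Matrix.one_mul, Matrix.mul_zero, add_zero]
    · rw [Matrix.zero_mul, Matrix.one_mul, zero_add]
    · rw [Matrix.zero_mul, Matrix.mul_zero, add_zero]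
  unfold bdet
  rw [h1, Matrix.det_mul, Matrix.det_fromBlocks_zero₂₁, Matrix.det_one, Matrix.det_one, one_mul,
    one_mul]

/-- derivative of the invariance -/
theorem sum_mixD {κ : ℕ → ℝ} (hκ : ∀ (b : Matrix (Fin p) (Fin n) ℂ)
    (A : Matrix (Fin n) (Fin n) ℂ), bdet b A = ∑ i ∈ Finset.range (n + p + 1),
      κ i * (A + ((((i : ℝ) + 1)⁻¹ : ℝ) : ℂ) • qb b).det.re)
    (b : Matrix (Fin p) (Fin n) ℂ) (A : Matrix (Fin n) (Fin n) ℂ) (C : Matrix (Fin p) (Fin p) ℂ) :
    ∑ i ∈ Finset.range (n + p + 1), κ i * mixD (A + ((((i : ℝ) + 1)⁻¹ : ℝ) : ℂ) • qb b)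
      (b.transpose * C * b.map (starRingEnd ℂ)) = 0 := by
  set H := b.transpose * C * b.map (starRingEnd ℂ) with hH
  have h1 : HasDerivAt (fun t : ℝ => ∑ i ∈ Finset.range (n + p + 1),
      κ i * ((A + ((((i : ℝ) + 1)⁻¹ : ℝ) : ℂ) • qb b) + (t : ℂ) • H).det.re)
      (∑ i ∈ Finset.range (n + p + 1), κ i * mixD (A + ((((i : ℝ) + 1)⁻¹ : ℝ) : ℂ) • qb b) H) 0 := by
    refine HasDerivAt.fun_sum fun i _ => ?_
    have h := (hasDerivAt_mixD (A + ((((i : ℝ) + 1)⁻¹ : ℝ) : ℂ) • qb b) H 0).const_mul (κ i)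
    rwa [Complex.ofReal_zero, zero_smul, add_zero] at h
  have h2 : (fun t : ℝ => ∑ i ∈ Finset.range (n + p + 1),
      κ i * ((A + ((((i : ℝ) + 1)⁻¹ : ℝ) : ℂ) • qb b) + (t : ℂ) • H).det.re) = fun _ => bdet b A := by
    funext t
    have h3 : bdet b (A + b.transpose * ((t : ℂ) • C) * b.map (starRingEnd ℂ)) = bdet b A :=
      bdet_inv b A _
    rw [← h3, hκ]
    refine Finset.sum_congr rfl fun i _ => ?_
    rw [hH, Matrix.mul_smul, Matrix.smul_mul]
    congr 3
    abel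
  rw [h2] at h1
  exact h1.unique (hasDerivAt_const 0 _)

end Vale.Agent.P281.H776.NU
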