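import Vale.Agent.P281.H776.NU.Alg
import Vale.Agent.P272.K.AMP.Green
import Vale.Agent.P272.K.AMP.Main.Step0
import Vale.Agent.P281.H227.GMC

/-! P281, theorem NU, row N5, part 2: Green's formula for closed forms. -/

open scoped Manifold ContDiff Topology ComplexOrder
open Set Filter Vale.Agent.P281.J Vale.Agent.P272.K Vale.Agent.P272.K.AMP Vale.Agent.P299
open Vale.Agent.P272.K.INT (IsClosedForm intX IsDensity lag)

noncomputable section

namespace Vale.Agent.P281.H776.NU

open Vale.Agent.P281.H167.GM (mixD addF isForm_addF)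
open Vale.Agent.P281.H564 (hasDerivAt_mixD)
open Vale.Agent.P281.H227.GMC (isClosed_addF)
open Vale.Agent.P281.H787 (isDensity_mixD mixD_lag)

variable {n : ℕ} {X : Type} [TopologicalSpace X] [ChartedSpace (Cm n) X]
  [IsManifold 𝓘(ℂ, Cm n) ω X]

/-- Hermitian at all points -/
def HermF (A : D.FormM n X) : Prop := ∀ e x, At e x → (A e (e x)).IsHermitian

lemma hermF_hess {u : X → ℝ} (hu : SmoothFn (n := n) u) : HermF (hess (n := n) u) :=
  fun e x hx => cHess_isHermitian ((hu e x hx).of_le (by norm_cast))

lemma HermF.add {A B : D.FormM n X} (hA : HermF A) (hB : HermF B) (t : ℝ) :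
    HermF (addF A t B) := by
  intro e x hx
  refine (hA e x hx).add ?_
  have h := hB e x hx
  unfold Matrix.IsHermitian at h ⊢
  rw [Matrix.conjTranspose_smul, h, RCLike.star_def, Complex.conj_ofReal]

lemma closed_hess {u : X → ℝ} (hu : SmoothFn (n := n) u) : IsClosedForm (hess (n := n) u) :=
  INT.isClosedForm_cHess hu

lemma isKahler_of {A : D.FormM n X} (hA : IsClosedForm A)
    (hp : ∀ e x, At e x → (A e (e x)).PosDef) : IsKahler A where
  smooth := hA.smooth
  posDef := hp
  change := hA.form
  closed e x hx i j k := hA.closed e x hx k i j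

variable [T2Space X] [CompactSpace X]

/-- `A + T χ` is Kähler for large `T` -/
lemma exists_large {χ A : D.FormM n X} (hχ : IsKahler χ) (hA : IsClosedForm A) (hH : HermF A) :
    ∃ T₀ : ℝ, ∀ T : ℝ, T₀ < T → IsKahler (addF A T χ) := by
  have hH' : ∀ e x, At e x → ((-A e (e x) : Matrix (Fin n) (Fin n) ℂ)).IsHermitian :=
    fun e x hx => (hH e x hx).neg
  have hn : IsClosedForm fun e z => (-1 : ℂ) • A e z := hA.smul (-1)
  obtain ⟨C, -, hC⟩ := AMP.Main.exists_comparison' (h := χ) (b := fun e z => (-1 : ℂ) • A e z)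
    hχ.toIsHermitian hn.smooth hn.form (fun e x hx => by
      have := hH' e x hx
      simpa using this)
  refine ⟨C, fun T hT => isKahler_of (isClosed_addF hA (INT.IsKahler.isClosedForm hχ) T) ?_⟩
  intro e x hx
  have h1 := hC e x hx
  have h2 : (((T - C : ℝ) : ℂ) • χ e (e x)).PosDef :=
    (hχ.posDef e x hx).smul (by exact_mod_cast sub_pos.2 hT)
  have h3 := Matrix.PosDef.add_posSemidef h2 h1
  have h4 : ((T - C : ℝ) : ℂ) • χ e (e x) + ((C : ℂ) • χ e (e x) - (-1 : ℂ) • A e (e x)) =
      addF A T χ e (e x) := by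
    unfold addF
    rw [neg_one_smul, sub_neg_eq_add]
    push_cast
    rw [sub_smul]
    abel
  rwa [h4] at h3

/-- the polynomial identity principle -/
lemma zero_of_lag {m : ℕ} {f : ℝ → ℝ} (hf : ∀ t, f t = ∑ j : Fin (m + 1), lag m j t * f (j : ℝ))
    {T₀ : ℝ} (h0 : ∀ T, T₀ < T → f T = 0) (t : ℝ) : f t = 0 := by
  set q : Polynomial ℝ := ∑ j : Fin (m + 1), Polynomial.C (f (j : ℝ)) *
    (Lagrange.basis (Finset.univ : Finset (Fin (m + 1))) (fun i => (i : ℝ)) j) with hq
  have hev : ∀ t, q.eval t = f t := by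
    intro t
    rw [hq, Polynomial.eval_finsetSum, hf t]
    refine Finset.sum_congr rfl fun j _ => ?_
    rw [Polynomial.eval_mul, Polynomial.eval_C, mul_comm]
    rfl
  have hz : q = 0 := by
    refine Polynomial.eq_zero_of_infinite_isRoot q ?_
    refine Set.Infinite.mono (s := Set.Ioi T₀) (fun T hT => ?_) (Set.Ioi_infinite T₀)
    show q.eval T = 0
    rw [hev, h0 T hT]
  rw [← hev, hz, Polynomial.eval_zero]

/-- Green's formula for closed Hermitian forms -/
theorem green_closed {χ C : D.FormM n X} (hχ : IsKahler χ) (hC : IsClosedForm C)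
    (hH : HermF C) {u v : X → ℝ} (hu : SmoothFn (n := n) u) (hv : SmoothFn (n := n) v) :
    intX (fun (e : Chart n X) z => v (e.symm z) * mixD (C e z) (hess u e z)) =
      intX (fun (e : Chart n X) z => u (e.symm z) * mixD (C e z) (hess v e z)) := by
  have hχc : IsClosedForm χ := INT.IsKahler.isClosedForm hχ
  have key : ∀ {a b : X → ℝ}, SmoothFn (n := n) a → SmoothFn (n := n) b → ∀ t : ℝ,
      intX (fun (e : Chart n X) z => b (e.symm z) * mixD (addF C t χ e z) (hess a e z)) =
      ∑ j : Fin (n + 1), lag n j t * intX (fun (e : Chart n X) z =>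
        b (e.symm z) * mixD (addF C (j : ℝ) χ e z) (hess a e z)) := by
    intro a b ha hb t
    have h1 : intX (fun (e : Chart n X) z => b (e.symm z) * mixD (addF C t χ e z) (hess a e z)) =
        intX (fun (e : Chart n X) z => ∑ j : Fin (n + 1), lag n j t *
          (b (e.symm z) * mixD (addF C (j : ℝ) χ e z) (hess a e z))) := by
      refine INT.intX_congr fun e x _ => ?_
      unfold addF
      rw [mixD_lag, Finset.mul_sum]
      exact Finset.sum_congr rfl fun j _ => by ring
    rw [h1, INT.intX_sum Finset.univ (D := fun (j : Fin (n + 1)) (e : Chart n X) z => lag n j t *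
          (b (e.symm z) * mixD (addF C (j : ℝ) χ e z) (hess a e z))) fun j _ =>
        (((isDensity_mixD (isClosed_addF hC hχc (j : ℝ)).form (closed_hess ha).form
          (isClosed_addF hC hχc (j : ℝ)).smooth (closed_hess ha).smooth).smul
            (INT.SmoothFn.continuous hb)).const_mul _)]
    exact Finset.sum_congr rfl fun j _ => INT.intX_const_mul _ _
  obtain ⟨T₀, hT⟩ := exists_large hχ hC hH
  set f : ℝ → ℝ := fun t =>
    intX (fun (e : Chart n X) z => v (e.symm z) * mixD (addF C t χ e z) (hess u e z)) -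
      intX (fun (e : Chart n X) z => u (e.symm z) * mixD (addF C t χ e z) (hess v e z)) with hf
  have h1 : ∀ t, f t = ∑ j : Fin (n + 1), lag n j t * f (j : ℝ) := by
    intro t
    simp only [hf]
    rw [key hu hv t, key hv hu t, ← Finset.sum_sub_distrib]
    exact Finset.sum_congr rfl fun j _ => by ring
  have h2 : ∀ T, T₀ < T → f T = 0 := by
    intro T hT'
    have hK := hT T hT'
    have e1 : ∀ {a b : X → ℝ}, intX (fun (e : Chart n X) z => b (e.symm z) *
        mixD (addF C T χ e z) (hess a e z)) =
        intX (fun (e : Chart n X) z => b (e.symm z) * Ld (addF C T χ) a e z) := by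
      intro a b
      refine INT.intX_congr fun e x hx => ?_
      rw [Vale.Agent.P281.H167.GM.mixD_eq (hK.posDef e x hx)]
      rfl
    simp only [hf]
    rw [e1, e1, green hK hu hv, sub_self]
  have h3 := zero_of_lag h1 h2 0
  have h4 : addF C 0 χ = C := by
    funext e z
    simp [addF]
  simp only [hf, h4] at h3
  exact sub_eq_zero.1 h3

end Vale.Agent.P281.H776.NU
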