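import Vale.Agent.P281.H776.NU.Tube

/-! P281, theorem NU, row N5: the integral of `b(y) dy ∧ dȳ ∧ A ^ d` depends only on the class of
the closed form `A`. -/

open scoped Manifold ContDiff Topology ComplexOrder
open Set Filter Vale.Agent.P281.J Vale.Agent.P272.K Vale.Agent.P272.K.AMP Vale.Agent.P299
open Vale.Agent.P272.K.INT (IsClosedForm intX IsDensity lag)

noncomputable section

namespace Vale.Agent.P281.H776.NU

open Vale.Agent.P281.H342.NU (bdet rowsY IsTube tubeF GreenPart)
open Vale.Agent.P281.H167.GM (mixD addF)
open Vale.Agent.P281.H227.GMC (isClosed_addF)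
open Vale.Agent.P281.H787 (isDensity_mixD)

section

variable {n : ℕ} {X : Type} [TopologicalSpace X] [ChartedSpace (Cm n) X]
  [IsManifold 𝓘(ℂ, Cm n) ω X] [T2Space X] [CompactSpace X]

/-- `t ↦ ∫ B det (A + t H)` and its derivative -/
lemma hasDerivAt_int {A H : D.FormM n X} (hA : IsClosedForm A) (hH : IsClosedForm H)
    {B : X → ℝ} (hB : Continuous B) (t : ℝ) :
    HasDerivAt (fun t : ℝ => intX (fun (e : Chart n X) z =>
      B (e.symm z) * (addF A t H e z).det.re))
      (intX (fun (e : Chart n X) z => B (e.symm z) * mixD (addF A t H e z) (H e z))) t := by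
  have hd : ∀ j : Fin (n + 1), IsDensity (fun (e : Chart n X) z =>
      B (e.symm z) * (addF A (j : ℝ) H e z).det.re) := fun j =>
    (isClosed_addF hA hH (j : ℝ)).isDensity.smul hB
  have h1 : (fun t : ℝ => intX (fun (e : Chart n X) z =>
      B (e.symm z) * (addF A t H e z).det.re)) = fun t => ∑ j : Fin (n + 1), lag n j t *
        intX (fun (e : Chart n X) z => B (e.symm z) * (addF A (j : ℝ) H e z).det.re) := by
    funext t
    have h2 : intX (fun (e : Chart n X) z => B (e.symm z) * (addF A t H e z).det.re) =
        intX (fun (e : Chart n X) z => ∑ j : Fin (n + 1), lag n j t *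
          (B (e.symm z) * (addF A (j : ℝ) H e z).det.re)) := by
      refine INT.intX_congr fun e x _ => ?_
      unfold addF
      rw [Vale.Agent.P281.H564.det_eq, Finset.mul_sum]
      exact Finset.sum_congr rfl fun j _ => by ring
    rw [h2, INT.intX_sum Finset.univ (D := fun (j : Fin (n + 1)) (e : Chart n X) z => lag n j t *
      (B (e.symm z) * (addF A (j : ℝ) H e z).det.re)) fun j _ => (hd j).const_mul _]
    exact Finset.sum_congr rfl fun j _ => INT.intX_const_mul _ _
  have h3 : intX (fun (e : Chart n X) z => B (e.symm z) * mixD (addF A t H e z) (H e z)) =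
      ∑ j : Fin (n + 1), deriv (lag n j) t *
        intX (fun (e : Chart n X) z => B (e.symm z) * (addF A (j : ℝ) H e z).det.re) := by
    have h2 : intX (fun (e : Chart n X) z => B (e.symm z) * mixD (addF A t H e z) (H e z)) =
        intX (fun (e : Chart n X) z => ∑ j : Fin (n + 1), deriv (lag n j) t *
          (B (e.symm z) * (addF A (j : ℝ) H e z).det.re)) := by
      refine INT.intX_congr fun e x _ => ?_
      unfold addF
      rw [Vale.Agent.P281.H564.mixD_eq, Finset.mul_sum]
      exact Finset.sum_congr rfl fun j _ => by ring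
    rw [h2, INT.intX_sum Finset.univ (D := fun (j : Fin (n + 1)) (e : Chart n X) z =>
      deriv (lag n j) t * (B (e.symm z) * (addF A (j : ℝ) H e z).det.re)) fun j _ =>
        (hd j).const_mul _]
    exact Finset.sum_congr rfl fun j _ => INT.intX_const_mul _ _
  rw [h1, h3]
  exact HasDerivAt.fun_sum fun j _ =>
    ((INT.lag_differentiable n j t).hasDerivAt).mul_const _

end

/-- **Row N5** -/
theorem greenPart : GreenPart := by
  intro n p X _ _ _ _ _ _ χ hχ O y W hT b₀ hb hc hs A hA hAH U hU
  obtain ⟨κ, hκ⟩ := exists_bdet n p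
  obtain ⟨h₀, hh0, hh1, hh2, hh3⟩ := exists_h0 hT.openW hc hs
  set B : X → ℝ := tubeF O y b₀ with hBdef
  set h : X → ℝ := tubeF O y h₀ with hhdef
  have hB : SmoothFn (n := n) B := smooth_tubeF hT hb hc hs
  have hh : SmoothFn (n := n) h := smooth_tubeF hT hh0 hh1 hh2
  set s : ℕ → ℝ := fun i => ((i : ℝ) + 1)⁻¹ with hsdef
  set A' : ℕ → D.FormM n X := fun i => addF A (s i) (hess h) with hA'
  have hA'c : ∀ i, IsClosedForm (A' i) := fun i => isClosed_addF hA (closed_hess hh) _
  have hA'H : ∀ i, HermF (A' i) := fun i => HermF.add hAH (hermF_hess hh) _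
  have hBc : Continuous B := INT.SmoothFn.continuous hB
  -- pointwise facts
  have hq : ∀ {e : Chart n X} {x : X}, At e x → x ∈ kS O y b₀ →
      hess (n := n) h e (e x) = qb (rowsY y e (e x)) := by
    intro e x hx hk
    rw [hhdef, hess_tubeF hT hh0 hx hk.1, hh3 _ hk.2, Matrix.mul_one]
    rfl
  have hpt : ∀ (t : ℝ) {e : Chart n X} {x : X}, At e x →
      B x * bdet (rowsY y e (e x)) (addF A t (hess U) e (e x)) =
      ∑ i ∈ Finset.range (n + p + 1), κ i * (B x * (addF (A' i) t (hess U) e (e x)).det.re) := by
    intro t e x hx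
    by_cases hk : x ∈ kS O y b₀
    · rw [hκ, Finset.mul_sum]
      refine Finset.sum_congr rfl fun i _ => ?_
      have h1 : addF (A' i) t (hess U) e (e x) =
          addF A t (hess U) e (e x) + ((s i : ℝ) : ℂ) • qb (rowsY y e (e x)) := by
        rw [← hq hx hk]
        simp only [hA', addF]
        abel
      rw [h1]
      ring
    · rw [hBdef, tubeF_of_notMem hk]
      simp
  have hzero : ∀ (t : ℝ) {e : Chart n X} {x : X}, At e x →
      ∑ i ∈ Finset.range (n + p + 1), κ i *
        mixD (addF (A' i) t (hess U) e (e x)) (hess (n := n) B e (e x)) = 0 := by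
    intro t e x hx
    by_cases hk : x ∈ kS O y b₀
    · have h2 := sum_mixD hκ (rowsY y e (e x)) (addF A t (hess U) e (e x)) (cHess b₀ (y x))
      rw [← hess_tubeF hT hb hx hk.1] at h2
      rw [← h2]
      refine Finset.sum_congr rfl fun i _ => ?_
      have h1 : addF (A' i) t (hess U) e (e x) =
          addF A t (hess U) e (e x) + ((s i : ℝ) : ℂ) • qb (rowsY y e (e x)) := by
        rw [← hq hx hk]
        simp only [hA', addF]
        abel
      rw [h1]
    · refine Finset.sum_eq_zero fun i _ => ?_
      rw [hBdef, hess_zero hT hc hs hx hk]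
      simp [mixD]
  -- the function of `t`
  set f : ℕ → ℝ → ℝ := fun i t => intX (fun (e : Chart n X) z =>
    B (e.symm z) * (addF (A' i) t (hess U) e z).det.re) with hf
  have hder : ∀ t : ℝ, HasDerivAt (fun t => ∑ i ∈ Finset.range (n + p + 1), κ i * f i t) 0 t := by
    intro t
    have h1 : HasDerivAt (fun t => ∑ i ∈ Finset.range (n + p + 1), κ i * f i t)
        (∑ i ∈ Finset.range (n + p + 1), κ i * intX (fun (e : Chart n X) z =>
          B (e.symm z) * mixD (addF (A' i) t (hess U) e z) (hess U e z))) t :=
      HasDerivAt.fun_sum fun i _ =>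
        (hasDerivAt_int (hA'c i) (closed_hess hU) hBc t).const_mul (κ i)
    have h2 : ∑ i ∈ Finset.range (n + p + 1), κ i * intX (fun (e : Chart n X) z =>
          B (e.symm z) * mixD (addF (A' i) t (hess U) e z) (hess U e z)) = 0 := by
      have h3 : ∀ i, intX (fun (e : Chart n X) z =>
          B (e.symm z) * mixD (addF (A' i) t (hess U) e z) (hess U e z)) =
          intX (fun (e : Chart n X) z =>
          U (e.symm z) * mixD (addF (A' i) t (hess U) e z) (hess B e z)) := fun i =>
        green_closed hχ (isClosed_addF (hA'c i) (closed_hess hU) t)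
          (HermF.add (hA'H i) (hermF_hess hU) t) hU hB
      have h4 : ∀ i ∈ Finset.range (n + p + 1), IsDensity (fun (e : Chart n X) z =>
          κ i * (U (e.symm z) * mixD (addF (A' i) t (hess U) e z) (hess B e z))) := fun i _ =>
        ((isDensity_mixD (isClosed_addF (hA'c i) (closed_hess hU) t).form (closed_hess hB).form
          (isClosed_addF (hA'c i) (closed_hess hU) t).smooth (closed_hess hB).smooth).smul
            (INT.SmoothFn.continuous hU)).const_mul _
      have h5 : ∑ i ∈ Finset.range (n + p + 1), κ i * intX (fun (e : Chart n X) z =>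
          B (e.symm z) * mixD (addF (A' i) t (hess U) e z) (hess U e z)) =
          intX (fun (e : Chart n X) z => ∑ i ∈ Finset.range (n + p + 1),
            κ i * (U (e.symm z) * mixD (addF (A' i) t (hess U) e z) (hess B e z))) := by
        rw [INT.intX_sum _ h4]
        refine Finset.sum_congr rfl fun i _ => ?_
        rw [INT.intX_const_mul, h3]
      rw [h5, ← INT.intX_zero (n := n) (X := X)]
      refine INT.intX_congr fun e x hx => ?_
      have h6 := hzero t hx
      calc ∑ i ∈ Finset.range (n + p + 1), κ i * (U (e.symm (e x)) *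
            mixD (addF (A' i) t (hess U) e (e x)) (hess B e (e x)))
          = U (e.symm (e x)) * ∑ i ∈ Finset.range (n + p + 1), κ i *
            mixD (addF (A' i) t (hess U) e (e x)) (hess B e (e x)) := by
            rw [Finset.mul_sum]
            exact Finset.sum_congr rfl fun i _ => by ring
        _ = 0 := by rw [h6, mul_zero]
    rwa [h2] at h1
  have hconst : ∀ t : ℝ, ∑ i ∈ Finset.range (n + p + 1), κ i * f i t =
      ∑ i ∈ Finset.range (n + p + 1), κ i * f i 0 := fun t =>
    is_const_of_deriv_eq_zero (fun t => (hder t).differentiableAt) (fun t => (hder t).deriv) t 0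
  have hend : ∀ t : ℝ, intX (fun (e : Chart n X) z =>
      B (e.symm z) * bdet (rowsY y e z) (addF A t (hess U) e z)) =
      ∑ i ∈ Finset.range (n + p + 1), κ i * f i t := by
    intro t
    have h4 : ∀ i ∈ Finset.range (n + p + 1), IsDensity (fun (e : Chart n X) z =>
        κ i * (B (e.symm z) * (addF (A' i) t (hess U) e z).det.re)) := fun i _ =>
      ((isClosed_addF (hA'c i) (closed_hess hU) t).isDensity.smul hBc).const_mul _
    have h5 : intX (fun (e : Chart n X) z =>
        B (e.symm z) * bdet (rowsY y e z) (addF A t (hess U) e z)) =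
        intX (fun (e : Chart n X) z => ∑ i ∈ Finset.range (n + p + 1),
          κ i * (B (e.symm z) * (addF (A' i) t (hess U) e z).det.re)) := by
      refine INT.intX_congr fun e x hx => ?_
      have := hpt t hx
      rw [e.left_inv hx.2]
      exact this
    rw [h5, INT.intX_sum _ h4]
    exact Finset.sum_congr rfl fun i _ => INT.intX_const_mul _ _
  have e1 : intX (fun (e : Chart n X) z => B (e.symm z) * bdet (rowsY y e z) (addH A U e z)) =
      intX (fun (e : Chart n X) z =>
        B (e.symm z) * bdet (rowsY y e z) (addF A 1 (hess U) e z)) := by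
    refine INT.intX_congr fun e x hx => ?_
    have : addF A 1 (hess U) e (e x) = addH A U e (e x) := by
      unfold addF addH hess
      rw [Complex.ofReal_one, one_smul]
    rw [this]
  have e0 : intX (fun (e : Chart n X) z => B (e.symm z) * bdet (rowsY y e z) (A e z)) =
      intX (fun (e : Chart n X) z =>
        B (e.symm z) * bdet (rowsY y e z) (addF A 0 (hess U) e z)) := by
    refine INT.intX_congr fun e x hx => ?_
    have : addF A 0 (hess U) e (e x) = A e (e x) := by
      unfold addF
      rw [Complex.ofReal_zero, zero_smul, add_zero]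
    rw [this]
  rw [e1, e0, hend, hend, hconst]

end Vale.Agent.P281.H776.NU
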