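import Vale.Agent.P281.H776.NU.Closed
import Vale.Agent.P272.K.AMP.H470.Loc
import Mathlib.Geometry.Manifold.PartitionOfUnity

/-! P281, theorem NU, row N5, part 3: functions of `y` on a tube. -/

open scoped Manifold ContDiff Topology ComplexOrder
open Set Filter Vale.Agent.P281.J Vale.Agent.P272.K Vale.Agent.P272.K.AMP Vale.Agent.P299
open Vale.Agent.P272.K.INT (IsClosedForm intX IsDensity lag)

noncomputable section

namespace Vale.Agent.P281.H776.NU

open Vale.Agent.P281.H342.NU (bdet rowsY IsTube tubeF)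
open Vale.Agent.P272.K.QN (jm jm_holo)

variable {n p : ℕ} {X : Type} [TopologicalSpace X] [ChartedSpace (Cm n) X]
  {O : Set X} {y : X → Cm p} {W : Set (Cm p)} {b₀ : Cm p → ℝ}

lemma tubeF_of_mem {x : X} (hx : x ∈ O) : tubeF O y b₀ x = b₀ (y x) := by
  unfold tubeF
  rw [if_pos hx]

/-- the compact set outside which `tubeF` vanishes -/
def kS (O : Set X) (y : X → Cm p) (b₀ : Cm p → ℝ) : Set X := {x | x ∈ O ∧ y x ∈ tsupport b₀}

lemma tubeF_of_notMem {x : X} (hx : x ∉ kS O y b₀) : tubeF O y b₀ x = 0 := by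
  unfold tubeF
  split_ifs with h
  · refine image_eq_zero_of_notMem_tsupport fun h' => hx ⟨h, h'⟩
  · rfl

variable [IsManifold 𝓘(ℂ, Cm n) ω X]

lemma y_holo (hT : IsTube (n := n) O y W) {e : Chart n X} {x : X} (hx : At e x) (hO : x ∈ O) :
    ContDiffAt ℂ ω (fun z => y (e.symm z)) (e x) := by
  rw [← contMDiffAt_iff_contDiffAt]
  have h1 := INT.chart_symm_contMDiffAt hx.1 (e.map_source hx.2)
  refine ContMDiffAt.comp (e x) ?_ h1
  rw [e.left_inv hx.2]
  exact hT.hol x hO

lemma rowsY_eq (hT : IsTube (n := n) O y W) {e : Chart n X} {x : X} (hx : At e x) (hO : x ∈ O) :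
    rowsY y e (e x) = jm (fun z => y (e.symm z)) (e x) := by
  have h := (y_holo hT hx hO).differentiableAt (by simp)
  ext a i
  unfold rowsY jm
  rw [Matrix.of_apply, Matrix.of_apply, INT.dz_of_holo ((differentiableAt_pi.1 h) a)]

lemma hess_tubeF (hT : IsTube (n := n) O y W) (hb : ContDiff ℝ ∞ b₀) {e : Chart n X} {x : X}
    (hx : At e x) (hO : x ∈ O) : hess (n := n) (tubeF O y b₀) e (e x) =
      (rowsY y e (e x)).transpose * cHess b₀ (y x) * (rowsY y e (e x)).map (starRingEnd ℂ) := by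
  have hev : (fun z => tubeF O y b₀ (e.symm z)) =ᶠ[𝓝 (e x)] fun z => b₀ (y (e.symm z)) := by
    have h3 : Tendsto e.symm (𝓝 (e x)) (𝓝 x) := by
      have := e.continuousAt_symm (e.map_source hx.2)
      rw [ContinuousAt, e.left_inv hx.2] at this
      exact this
    filter_upwards [h3.eventually (hT.isOpen.mem_nhds hO)] with z hz
    exact tubeF_of_mem hz
  unfold hess
  rw [cHess_congr hev]
  have h4 := Vale.Agent.P285.H231.PB.cHess_comp_F (g := b₀) (Φ := fun z => y (e.symm z))
    (z := e x) (hb.contDiffAt.of_le (by norm_cast)) (y_holo hT hx hO)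
  rw [rowsY_eq hT hx hO]
  have h5 : y (e.symm (e x)) = y x := by rw [e.left_inv hx.2]
  simp only [h5] at h4
  exact h4

variable [T2Space X]

lemma isClosed_kS (hT : IsTube (n := n) O y W) (hc : HasCompactSupport b₀)
    (hs : tsupport b₀ ⊆ W) : IsClosed (kS O y b₀) :=
  (hT.proper _ hc hs).isClosed

lemma tubeF_eventually (hT : IsTube (n := n) O y W) (hc : HasCompactSupport b₀)
    (hs : tsupport b₀ ⊆ W) {e : Chart n X} {x : X} (hx : At e x) (hk : x ∉ kS O y b₀) :
    (fun z => tubeF O y b₀ (e.symm z)) =ᶠ[𝓝 (e x)] fun _ => 0 := by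
  have h3 : Tendsto e.symm (𝓝 (e x)) (𝓝 x) := by
    have := e.continuousAt_symm (e.map_source hx.2)
    rw [ContinuousAt, e.left_inv hx.2] at this
    exact this
  filter_upwards [h3.eventually ((isClosed_kS hT hc hs).isOpen_compl.mem_nhds hk)] with z hz
  exact tubeF_of_notMem hz

lemma smooth_tubeF (hT : IsTube (n := n) O y W) (hb : ContDiff ℝ ∞ b₀) (hc : HasCompactSupport b₀)
    (hs : tsupport b₀ ⊆ W) : SmoothFn (n := n) (tubeF O y b₀) := by
  intro e x hx
  by_cases hO : x ∈ O
  · have hev : (fun z => tubeF O y b₀ (e.symm z)) =ᶠ[𝓝 (e x)] fun z => b₀ (y (e.symm z)) := by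
      have h3 : Tendsto e.symm (𝓝 (e x)) (𝓝 x) := by
        have := e.continuousAt_symm (e.map_source hx.2)
        rw [ContinuousAt, e.left_inv hx.2] at this
        exact this
      filter_upwards [h3.eventually (hT.isOpen.mem_nhds hO)] with z hz
      exact tubeF_of_mem hz
    refine ContDiffAt.congr_of_eventuallyEq ?_ hev
    have h1 : ContDiffAt ℝ ∞ (fun z => y (e.symm z)) (e x) :=
      ((y_holo hT hx hO).restrict_scalars ℝ).of_le le_top
    exact hb.contDiffAt.comp (e x) h1
  · exact contDiffAt_const.congr_of_eventuallyEq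
      (tubeF_eventually hT hc hs hx fun h => hO h.1)

lemma hess_zero (hT : IsTube (n := n) O y W) (hc : HasCompactSupport b₀)
    (hs : tsupport b₀ ⊆ W) {e : Chart n X} {x : X} (hx : At e x) (hk : x ∉ kS O y b₀) :
    hess (n := n) (tubeF O y b₀) e (e x) = 0 := by
  unfold hess
  rw [cHess_congr (tubeF_eventually hT hc hs hx hk), cHess_const]

/-- a compactly supported function equal to `|w|²` near a compact set -/
lemma exists_h0 (hW : IsOpen W) {K : Set (Cm p)} (hK : IsCompact K) (hKW : K ⊆ W) :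
    ∃ h₀ : Cm p → ℝ, ContDiff ℝ ∞ h₀ ∧ HasCompactSupport h₀ ∧ tsupport h₀ ⊆ W ∧
      ∀ w ∈ K, cHess h₀ w = 1 := by
  obtain ⟨K', hK', h1, h2⟩ := exists_compact_between hK hW hKW
  obtain ⟨K'', hK'', h3, h4⟩ := exists_compact_between hK' hW h2
  obtain ⟨f, hf, -, hsupp, hone⟩ := exists_contMDiff_support_eq_eq_one_iff (n := (⊤ : ℕ∞))
    𝓘(ℝ, Cm p) (s := interior K'') (t := K') isOpen_interior hK'.isClosed h3
  have hts : tsupport f ⊆ K'' := by
    unfold tsupport
    rw [hsupp]
    exact closure_minimal interior_subset hK''.isClosed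
  have hf' : ContDiff ℝ ∞ f := hf.contDiff
  have htm : tsupport (fun w => f w * sq (0 : Cm p) w) ⊆ tsupport f := by
    refine closure_mono fun w hw => ?_
    rw [Function.mem_support] at hw ⊢
    exact left_ne_zero_of_mul hw
  refine ⟨fun w => f w * sq (0 : Cm p) w, hf'.mul (contDiff_sq 0), ?_, ?_, ?_⟩
  · exact IsCompact.of_isClosed_subset hK'' (isClosed_tsupport _) (htm.trans hts)
  · exact (htm.trans hts).trans h4
  · intro w hw
    have h5 : (fun w => f w * sq (0 : Cm p) w) =ᶠ[𝓝 w] sq (0 : Cm p) := by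
      filter_upwards [isOpen_interior.mem_nhds (h1 hw)] with v hv
      rw [(hone v).1 (interior_subset hv), one_mul]
    rw [cHess_congr h5, cHess_sq]

end Vale.Agent.P281.H776.NU
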